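import Vale.Agent.P090.Main

/-!
A uniformly discrete metric space whose Lipschitz-free space fails the bounded approximation
property.
-/

namespace Vale.Agent.Results.P090.NoBAP

open Vale.Agent.P090

theorem result :
    ∃ (M : Type) (_ : MetricSpace M) (o : M),
      IsUniformlyDiscrete M ∧ Countable M ∧ ¬ HasBAP (FreeSpace M o) :=
  ⟨Space, inferInstance, origin, isUniformlyDiscrete_space, inferInstance, not_hasBAP⟩

end Vale.Agent.Results.P090.NoBAP
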